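import Vale.Agent.P179.H580.Y1
import Vale.Agent.P179.H175.Trf
import Vale.Agent.P179.Allb.Defs

/-!
# Module Y1 in the frozen letters
-/

namespace Vale.P179.H580

open Module Vale.P179.H445 Vale.P179.Allb Vale.P179.Sgn
open scoped TensorProduct

/-- **module HOMM**, for any relative data -/
theorem homm_rel {K A L P S S' : Type*} [Field K] [Ring A] [Algebra K A] [Ring L] [Algebra K L]
    [Group P] [Fintype P] [AddCommGroup S] [Module K S] [AddCommGroup S'] [Module K S']
    {γ : P →* A} {ι : A →ₐ[K] L} {ρ : L →ₗ[K] A} {θ : L →ₗ[K] L}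
    (R : Rel γ ι ρ θ) (hspan : Submodule.span K (Set.range γ) = ⊤) {m : ℕ}
    {s t : Fin m → L} (hst : ∑ i, s i * t i = 1)
    (hsep : ∀ b : L, (∑ i, (b * s i) ⊗ₜ[K] t i) - (∑ i, s i ⊗ₜ[K] (t i * b)) ∈
      Submodule.span K {z : L ⊗[K] L | ∃ (x y : L) (h : A),
        z = (x * ι h) ⊗ₜ[K] y - x ⊗ₜ[K] (ι h * y)})
    (φ : L →ₐ[K] Module.End K S) (φ' : L →ₐ[K] Module.End K S') (f : S →ₗ[K] S')
    (hf : ∀ x : P, ∀ v, f (φ (ι (γ x)) v) = φ' (ι (γ x)) (f v)) :
    ∃ g F : S →ₗ[K] S', (∀ a v, g (φ a v) = φ' a (g v)) ∧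
      ∀ v, f v = g v + ∑ x : P, φ' (ι (γ x)) (F (φ (ι (γ x⁻¹)) v)) := by
  let lam : L →ₗ[K] (S →ₗ[K] S') →ₗ[K] (S →ₗ[K] S') :=
    LinearMap.mk₂ K (fun b X => (φ' b : S' →ₗ[K] S') ∘ₗ X)
      (fun b b' X => by rw [map_add]; exact LinearMap.add_comp _ _ _)
      (fun c b X => by rw [map_smul]; exact LinearMap.smul_comp _ _ _)
      (fun b X X' => LinearMap.comp_add _ _ _)
      (fun c b X => LinearMap.comp_smul _ _ _)
  let rr : L →ₗ[K] (S →ₗ[K] S') →ₗ[K] (S →ₗ[K] S') :=
    LinearMap.mk₂ K (fun b X => X ∘ₗ (φ b : S →ₗ[K] S))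
      (fun b b' X => by rw [map_add]; exact LinearMap.comp_add _ _ _)
      (fun c b X => by rw [map_smul]; exact LinearMap.comp_smul _ _ _)
      (fun b X X' => LinearMap.add_comp _ _ _)
      (fun c b X => LinearMap.smul_comp _ _ _)
  have hlam : ∀ b X v, lam b X v = φ' b (X v) := fun b X v => rfl
  have hrr : ∀ b X v, rr b X v = X (φ b v) := fun b X v => rfl
  obtain ⟨g, F, h1, h2⟩ := rel_main R hspan hst hsep lam rr
    (fun X => LinearMap.ext fun v => by rw [hlam, map_one, Module.End.one_apply])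
    (fun a b X => LinearMap.ext fun v => by
      rw [hlam, hlam, hlam, map_mul, Module.End.mul_apply])
    (fun a b X => LinearMap.ext fun v => by
      rw [hrr, hrr, hrr, map_mul, Module.End.mul_apply])
    (fun a b X => LinearMap.ext fun v => by rw [hlam, hrr, hrr, hlam])
    f (fun x => LinearMap.ext fun v => by rw [hlam, hrr, hf])
  refine ⟨g, F, fun a v => ?_, fun v => ?_⟩
  · have := congrArg (fun X => X v) (h1 a)
    simp only [hlam, hrr] at this
    exact this.symm
  · have := congrArg (fun X => X v) h2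
    simp only [LinearMap.add_apply, LinearMap.sum_apply, hlam, hrr] at this
    exact this

/-- **module HOMM** -/
theorem homm : HOMM := by
  intro k P Λ _ _ _ _ _ K hK S S' _ _ _ _ φ φ' f hf
  exact homm_rel K.rel K.span K.st K.sep φ φ' f hf

/-- **module FREEM** -/
theorem freem : FREEM := by
  intro p _ k _ _ P _ _ hP M _ _ _ r hr
  refine ⟨?_, ?_⟩
  · obtain ⟨h, hh⟩ := tate hP r hr r LinearMap.id (fun g w => rfl)
    refine ⟨h, fun m => ?_⟩
    have := congrArg (fun f => f m) hh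
    rw [trm_apply] at this
    exact this
  · obtain ⟨q, b, hb⟩ := exists_free_basis hP r hr
    exact ⟨Fin q, inferInstance, b, fun t x y => hb x t y⟩

/-- `P` with the trivial automorphism -/
theorem tw_one {p : ℕ} {P : Type} [CommGroup P] (hP : IsPGroup p P) : TW p P 1 1 where
  pgr := hP
  pow := one_pow _
  cop := Nat.coprime_one_left _
  free := fun i _ _ _ => one_dvd i

/-- `P` as a semidirect product with the trivial group -/
theorem gx_one (P : Type) [CommGroup P] : GX P P 1 1 (MonoidHom.id P) 1 where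
  inj := fun _ _ h => h
  tw := fun x => by simp
  pow := one_pow _
  gen := fun γ => ⟨γ, 0, by simp⟩
  card := by simp

/-- **module Y1** -/
theorem y1_of (hE : ENDP) : Allb.Y1 := by
  classical
  intro p _ k _ _ _ P _ _ _ hP Λ _ _ A hA
  have : Fintype P := Fintype.ofFinite P
  obtain ⟨K, hγ, hu, -, -, -⟩ := hE p k P 1 1 (tw_one hP) Λ A hA P (MonoidHom.id P) 1 (gx_one P)
  have : Fintype A.I := A.fin
  have : FiniteDimensional k Λ := Module.Finite.of_basis A.b
  have hu' : ∀ x, K.ι (K.γ x) = A.u x := fun x => by rw [hγ]; exact hu x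
  obtain ⟨φ, hφ1, hφ2, hφ3⟩ := H175.trf K.card0 K.rel K.span K.aug K.augγ
  obtain ⟨n, π, h1, h2, h3, ⟨q, b, hb1, hb2⟩, -⟩ := y1 hP K.rel K.span K.st K.sep K.card0
    (fun z hz => A.loc z fun x => by rw [← hu']; exact hz x) φ hφ1 hφ2 hφ3
  refine ⟨n, π, h1, h2, ?_, ?_, Fin q × P, inferInstance, b, hb1, ?_, ?_⟩
  · intro x hx
    rw [Subgroup.mem_bot.1 hx, map_one]
  · rwa [Fintype.card_fin]
  · rintro x ⟨i, y⟩
    refine ⟨(i, x * y), ?_⟩
    rw [← hb2, hu', hu']
    rfl
  · rintro x hx ⟨i, y⟩ he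
    have h4 := hb2 x i y
    rw [hu', hu'] at h4
    have h5 : π (A.u x) * b (some (i, y)) * π (A.u x⁻¹) = b (some (i, y)) := by
      have h6 : π (A.u x) * b (some (i, y)) = b (some (i, y)) * π (A.u x) := he
      rw [h6, mul_assoc, ← map_mul, ← map_mul, mul_inv_cancel, map_one, map_one, mul_one]
    rw [h5] at h4
    have h7 := b.injective h4
    simp only [Option.some.injEq, Prod.mk.injEq, true_and] at h7
    apply hx
    rw [Subgroup.mem_bot]
    exact mul_eq_right.1 h7.symm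

end Vale.P179.H580
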