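import Mathlib

/-!
# Representations of `p`-groups in characteristic `p` all of whose fixed vectors are traces
-/

namespace Vale.P179.H580

open Module

/-- A `p`-group acting linearly on a nonzero vector space in characteristic `p` fixes a nonzero
vector. -/
theorem exists_fixed_vector {p : ℕ} [hp : Fact p.Prime] {k P V : Type*} [Field k] [CharP k p]
    [Group P] [Finite P] (hP : IsPGroup p P) [AddCommGroup V] [Module k V] [Nontrivial V]
    (ρ : Representation k P V) : ∃ v : V, v ≠ 0 ∧ ∀ g, ρ g v = v := by
  classical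
  let _ : Algebra (ZMod p) k := ZMod.algebra k p
  let _ : Module (ZMod p) V := Module.compHom V (algebraMap (ZMod p) k)
  obtain ⟨v, hv⟩ := exists_ne (0 : V)
  let W : Submodule (ZMod p) V := Submodule.span (ZMod p) (Set.range fun g => ρ g v)
  have hfin : Module.Finite (ZMod p) W := Module.Finite.span_of_finite _ (Set.finite_range _)
  have hW : Finite W := Module.finite_of_finite (ZMod p)
  have hsmul : ∀ (c : ZMod p) (g : P) (w : V), ρ g (c • w) = c • ρ g w := by
    intro c g w
    change ρ g ((algebraMap (ZMod p) k c) • w) = (algebraMap (ZMod p) k c) • ρ g w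
    rw [map_smul]
  have hstable : ∀ (g : P) (w : V), w ∈ W → ρ g w ∈ W := by
    intro g w hw
    induction hw using Submodule.span_induction with
    | mem x hx =>
      obtain ⟨h, rfl⟩ := hx
      refine Submodule.subset_span ⟨g * h, ?_⟩
      simp
    | zero => simp
    | add x y _ _ hx hy => rw [map_add]; exact add_mem hx hy
    | smul a x _ hx => rw [hsmul]; exact Submodule.smul_mem _ _ hx
  let _ : MulAction P W :=
    { smul := fun g w => ⟨ρ g w, hstable g w w.2⟩
      one_smul := fun w => Subtype.ext (by change ρ 1 (w : V) = w; simp)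
      mul_smul := fun g h w => Subtype.ext (by change ρ (g * h) (w : V) = ρ g (ρ h w); simp) }
  have hvW : v ∈ W := Submodule.subset_span ⟨1, by simp⟩
  have hne : Nontrivial W := ⟨⟨⟨v, hvW⟩, 0, fun h => hv (congrArg Subtype.val h)⟩⟩
  have hcard : p ∣ Nat.card W := by
    have h1 : 0 < Module.finrank (ZMod p) W := Module.finrank_pos
    have h2 : Nat.card W = p ^ Module.finrank (ZMod p) W := by
      rw [Module.natCard_eq_pow_finrank (K := ZMod p), Nat.card_zmod]
    rw [h2]
    exact dvd_pow_self p h1.ne'
  have h0 : (0 : W) ∈ MulAction.fixedPoints P W := by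
    intro g
    apply Subtype.ext
    change ρ g (0 : V) = 0
    simp
  obtain ⟨w, hw, hw0⟩ := hP.exists_fixed_point_of_prime_dvd_card_of_fixed_point W hcard h0
  refine ⟨w, fun h => hw0 (Subtype.ext h.symm), fun g => ?_⟩
  exact congrArg Subtype.val (hw g)

section

variable {k P N W : Type*} [Field k] [Group P] [Fintype P] [AddCommGroup N] [Module k N]
  [AddCommGroup W] [Module k W]

/-- the relative trace of a linear map -/
def trm (ρ : Representation k P N) (σ : Representation k P W) (h : W →ₗ[k] N) : W →ₗ[k] N :=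
  ∑ g, ρ g ∘ₗ h ∘ₗ σ g⁻¹

theorem trm_apply (ρ : Representation k P N) (σ : Representation k P W) (h : W →ₗ[k] N) (w : W) :
    trm ρ σ h w = ∑ g, ρ g (h (σ g⁻¹ w)) := by
  simp [trm, LinearMap.sum_apply]

theorem trm_equi (ρ : Representation k P N) (σ : Representation k P W) (h : W →ₗ[k] N)
    (x : P) (w : W) : trm ρ σ h (σ x w) = ρ x (trm ρ σ h w) := by
  rw [trm_apply, trm_apply, map_sum]
  refine Fintype.sum_equiv (Equiv.mulLeft x⁻¹) _ _ fun g => ?_
  simp only [Equiv.coe_mulLeft, mul_inv_rev, inv_inv]
  rw [map_mul σ, Module.End.mul_apply, map_mul ρ, Module.End.mul_apply,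
    ← Module.End.mul_apply (ρ x), ← map_mul ρ, mul_inv_cancel, map_one, Module.End.one_apply]

theorem trm_add (ρ : Representation k P N) (σ : Representation k P W) (h h' : W →ₗ[k] N) :
    trm ρ σ (h + h') = trm ρ σ h + trm ρ σ h' := by
  ext w
  simp [trm_apply, Finset.sum_add_distrib]

end

/-- If every fixed vector of `N` is a trace, every equivariant map to `N` is a trace. -/
theorem tate_aux {p : ℕ} [Fact p.Prime] {k P : Type*} [Field k] [CharP k p] [Group P] [Fintype P]
    (hP : IsPGroup p P) {N : Type*} [AddCommGroup N] [Module k N] (ρ : Representation k P N)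
    (hN : ∀ x, (∀ g, ρ g x = x) → ∃ y, x = ∑ g, ρ g y) (n : ℕ) :
    ∀ (W : Type*) [AddCommGroup W] [Module k W] [FiniteDimensional k W]
    (σ : Representation k P W) (F : W →ₗ[k] N), (∀ g w, F (σ g w) = ρ g (F w)) →
    finrank k W = n → ∃ h : W →ₗ[k] N, F = trm ρ σ h := by
  classical
  induction n using Nat.strong_induction_on with
  | _ n ih =>
  intro W _ _ _ σ F hF hn
  rcases subsingleton_or_nontrivial W with hW | hW
  · exact ⟨0, LinearMap.ext fun w => by rw [Subsingleton.elim w 0, map_zero, map_zero]⟩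
  obtain ⟨ψ, hψ0, hψ⟩ := exists_fixed_vector hP (V := Module.Dual k W) σ.dual
  have hψ' : ∀ g w, ψ (σ g w) = ψ w := by
    intro g w
    have := congrArg (fun φ : Module.Dual k W => φ w) (hψ g⁻¹)
    simpa [Representation.dual_apply, Module.Dual.transpose_apply] using this
  let W1 : Submodule k W := LinearMap.ker ψ
  have hst : ∀ g w, w ∈ W1 → σ g w ∈ W1 := fun g w hw => by
    rw [LinearMap.mem_ker] at hw ⊢
    rw [hψ', hw]
  let σ1 : Representation k P W1 :=
    { toFun := fun g => (σ g).restrict (hst g)
      map_one' := by ext w; simp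
      map_mul' := fun g h => by ext w; simp }
  have hσ1 : ∀ g (w : W1), ((σ1 g w : W1) : W) = σ g w := fun g w => rfl
  obtain ⟨w0, hw0⟩ : ∃ w0, ψ w0 = 1 := by
    obtain ⟨w, hw⟩ : ∃ w, ψ w ≠ 0 := by
      by_contra hcon
      push Not at hcon
      exact hψ0 (LinearMap.ext hcon)
    exact ⟨(ψ w)⁻¹ • w, by rw [map_smul, smul_eq_mul, inv_mul_cancel₀ hw]⟩
  have hlt : finrank k W1 < n := by
    rw [← hn]
    refine Submodule.finrank_lt ?_
    intro h
    have : w0 ∈ W1 := by rw [h]; trivial
    rw [LinearMap.mem_ker, hw0] at this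
    exact one_ne_zero this
  obtain ⟨h1, hh1⟩ := ih _ hlt W1 σ1 (F ∘ₗ W1.subtype) (fun g w => by
    simp only [LinearMap.comp_apply, Submodule.subtype_apply]
    rw [hσ1, hF]) rfl
  obtain ⟨h', hh'⟩ := LinearMap.exists_extend h1
  have hF1 : ∀ w ∈ W1, F w = trm ρ σ h' w := by
    intro w hw
    have h2 := congrArg (fun f => f ⟨w, hw⟩) hh1
    simp only [LinearMap.comp_apply, Submodule.subtype_apply] at h2
    rw [h2, trm_apply, trm_apply]
    refine Finset.sum_congr rfl fun g _ => ?_
    have h3 : h' ((σ1 g⁻¹ ⟨w, hw⟩ : W1) : W) = h1 (σ1 g⁻¹ ⟨w, hw⟩) := by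
      rw [← hh']
      rfl
    rw [← h3, hσ1]
  let F' : W →ₗ[k] N := F - trm ρ σ h'
  have hF'0 : ∀ w ∈ W1, F' w = 0 := fun w hw => by
    simp only [F', LinearMap.sub_apply]
    rw [hF1 w hw, sub_self]
  have hF'e : ∀ g w, F' (σ g w) = ρ g (F' w) := fun g w => by
    simp only [F', LinearMap.sub_apply]
    rw [hF, trm_equi, map_sub]
  have hF'1 : ∀ w, F' w = ψ w • F' w0 := by
    intro w
    have h2 : w - ψ w • w0 ∈ W1 := by
      rw [LinearMap.mem_ker, map_sub, map_smul, hw0]
      simp
    have h3 := hF'0 _ h2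
    rw [map_sub, map_smul, sub_eq_zero] at h3
    exact h3
  obtain ⟨y, hy⟩ := hN (F' w0) (fun g => by
    rw [← hF'e, hF'1, hψ', hw0, one_smul])
  refine ⟨h' + ψ.smulRight y, ?_⟩
  rw [trm_add]
  ext w
  have h2 : F w = trm ρ σ h' w + F' w := by
    simp only [F', LinearMap.sub_apply]
    abel
  rw [h2, LinearMap.add_apply, hF'1, hy, Finset.smul_sum, trm_apply ρ σ (ψ.smulRight y)]
  congr 1
  refine Finset.sum_congr rfl fun g _ => ?_
  rw [LinearMap.smulRight_apply, hψ', map_smul]

/-- If every fixed vector of `N` is a trace, every equivariant map to `N` is a trace. -/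
theorem tate {p : ℕ} [Fact p.Prime] {k P : Type*} [Field k] [CharP k p] [Group P] [Fintype P]
    (hP : IsPGroup p P) {N : Type*} [AddCommGroup N] [Module k N] (ρ : Representation k P N)
    (hN : ∀ x, (∀ g, ρ g x = x) → ∃ y, x = ∑ g, ρ g y)
    {W : Type*} [AddCommGroup W] [Module k W] [FiniteDimensional k W]
    (σ : Representation k P W) (F : W →ₗ[k] N) (hF : ∀ g w, F (σ g w) = ρ g (F w)) :
    ∃ h : W →ₗ[k] N, F = trm ρ σ h :=
  tate_aux hP ρ hN _ W σ F hF rfl

/-- If every fixed vector of `N` is a trace, `N` is a free module over the group algebra. -/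
theorem exists_free_basis {p : ℕ} [Fact p.Prime] {k P : Type*} [Field k] [CharP k p] [Group P]
    [Fintype P] (hP : IsPGroup p P) {N : Type*} [AddCommGroup N] [Module k N]
    [FiniteDimensional k N] (ρ : Representation k P N)
    (hN : ∀ x, (∀ g, ρ g x = x) → ∃ y, x = ∑ g, ρ g y) :
    ∃ (r : ℕ) (b : Basis (Fin r × P) k N), ∀ g i h, ρ g (b (i, h)) = b (i, g * h) := by
  classical
  let F : Submodule k N :=
    { carrier := {x | ∀ g, ρ g x = x}
      add_mem' := fun {x y} hx hy g => by rw [map_add, hx g, hy g]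
      zero_mem' := fun g => map_zero _
      smul_mem' := fun c x hx g => by rw [map_smul, hx g] }
  let r := finrank k F
  let bF : Basis (Fin r) k F := finBasis k F
  choose y hy using fun i => hN (bF i : N) (bF i).2
  let v : Fin r × P → N := fun x => ρ x.2 (y x.1)
  have hv : ∀ g i h, ρ g (v (i, h)) = v (i, g * h) := by
    intro g i h
    simp only [v]
    rw [map_mul, Module.End.mul_apply]
  -- the permutation representation on the coefficients
  let C : Representation k P (Fin r × P → k) :=
    { toFun := fun g => LinearMap.funLeft k k (fun x : Fin r × P => (x.1, g⁻¹ * x.2))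
      map_one' := by ext; simp [LinearMap.funLeft]
      map_mul' := fun g h => by
        apply LinearMap.ext
        intro c
        funext x
        simp [LinearMap.funLeft_apply, mul_assoc] }
  have hC : ∀ g c x, C g c x = c (x.1, g⁻¹ * x.2) := fun g c x => rfl
  let Φ : (Fin r × P → k) →ₗ[k] N := Fintype.linearCombination k v
  have hΦ : ∀ c, Φ c = ∑ x, c x • v x := fun c => Fintype.linearCombination_apply _ _ _
  have hΦe : ∀ g c, Φ (C g c) = ρ g (Φ c) := by
    intro g c
    rw [hΦ, hΦ, map_sum]
    refine Fintype.sum_equiv ((Equiv.refl _).prodCongr (Equiv.mulLeft g⁻¹)) _ _ fun x => ?_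
    rcases x with ⟨i, h⟩
    rw [hC, map_smul, Equiv.prodCongr_apply, Prod.map_apply, Equiv.refl_apply,
      Equiv.coe_mulLeft, hv, mul_inv_cancel_left]
  have hinj : Function.Injective Φ := by
    rw [← LinearMap.ker_eq_bot]
    by_contra hne
    have hnt : Nontrivial (LinearMap.ker Φ) := (Submodule.nontrivial_iff_ne_bot).2 hne
    let C1 : Representation k P (LinearMap.ker Φ) :=
      { toFun := fun g => (C g).restrict (fun c hc => by
          rw [LinearMap.mem_ker] at hc ⊢
          rw [hΦe, hc, map_zero])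
        map_one' := by ext c; simp
        map_mul' := fun g h => by
          apply LinearMap.ext
          intro c
          apply Subtype.ext
          simp [LinearMap.restrict_apply] }
    obtain ⟨c, hc0, hc⟩ := exists_fixed_vector hP C1
    have hc' : ∀ g, C g (c : Fin r × P → k) = c := fun g => congrArg Subtype.val (hc g)
    have hc1 : ∀ i h, (c : Fin r × P → k) (i, h) = (c : Fin r × P → k) (i, 1) := by
      intro i h
      have := congrFun (hc' h) (i, h)
      rw [hC] at this
      simpa using this.symm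
    have hker : Φ c = 0 := c.2
    have h2 : ∑ i, (c : Fin r × P → k) (i, 1) • (bF i : N) = 0 := by
      rw [← hker, hΦ, Fintype.sum_prod_type]
      refine Finset.sum_congr rfl fun i _ => ?_
      rw [hy i, Finset.smul_sum]
      refine Finset.sum_congr rfl fun h _ => ?_
      rw [hc1 i h]
    have h3 : ∀ i, (c : Fin r × P → k) (i, 1) = 0 := by
      have h4 : ∑ i, (c : Fin r × P → k) (i, 1) • bF i = 0 := by
        apply Subtype.ext
        simpa using h2
      exact Fintype.linearIndependent_iff.1 bF.linearIndependent _ h4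
    apply hc0
    apply Subtype.ext
    funext x
    rcases x with ⟨i, h⟩
    rw [hc1, h3]
    rfl
  -- a retraction
  obtain ⟨r0, hr0⟩ := LinearMap.exists_leftInverse_of_injective Φ (LinearMap.ker_eq_bot.2 hinj)
  let e1 : (Fin r × P → k) →ₗ[k] (Fin r × P → k) :=
    LinearMap.pi fun x => if x.2 = 1 then LinearMap.proj x else 0
  have he1 : ∀ c x, e1 c x = if x.2 = 1 then c x else 0 := by
    intro c x
    simp only [e1, LinearMap.pi_apply]
    split_ifs <;> rfl
  let R : N →ₗ[k] (Fin r × P → k) := trm C ρ (e1 ∘ₗ r0)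
  have hRe : ∀ g x, R (ρ g x) = C g (R x) := fun g x => trm_equi C ρ _ g x
  have hRΦ : ∀ c, R (Φ c) = c := by
    intro c
    simp only [R]
    rw [trm_apply]
    have h1 : ∀ g, r0 (ρ g⁻¹ (Φ c)) = C g⁻¹ c := fun g => by
      rw [← hΦe]
      exact congrArg (fun f => f (C g⁻¹ c)) hr0
    funext x
    rcases x with ⟨i, h⟩
    rw [Finset.sum_apply]
    rw [Finset.sum_eq_single h]
    · rw [LinearMap.comp_apply, h1, hC, he1]
      simp [hC]
    · intro g _ hg
      rw [LinearMap.comp_apply, h1, hC, he1, if_neg]
      intro h2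
      apply hg
      simpa using (inv_mul_eq_one.1 h2)
    · intro h2
      exact absurd (Finset.mem_univ _) h2
  have hRinj : Function.Injective R := by
    rw [← LinearMap.ker_eq_bot]
    by_contra hne
    have hnt : Nontrivial (LinearMap.ker R) := (Submodule.nontrivial_iff_ne_bot).2 hne
    let C1 : Representation k P (LinearMap.ker R) :=
      { toFun := fun g => (ρ g).restrict (fun c hc => by
          rw [LinearMap.mem_ker] at hc ⊢
          rw [hRe, hc, map_zero])
        map_one' := by ext c; simp
        map_mul' := fun g h => by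
          apply LinearMap.ext
          intro c
          apply Subtype.ext
          simp [LinearMap.restrict_apply] }
    obtain ⟨c, hc0, hc⟩ := exists_fixed_vector hP C1
    have hc' : ∀ g, ρ g (c : N) = c := fun g => congrArg Subtype.val (hc g)
    -- fixed vectors are in the image of `Φ`
    have h1 : (c : N) ∈ F := hc'
    have h2 : ∃ a, Φ a = (c : N) := by
      refine ⟨fun x => bF.repr ⟨c, h1⟩ x.1, ?_⟩
      rw [hΦ, Fintype.sum_prod_type]
      have h3 : (c : N) = ∑ i, bF.repr ⟨c, h1⟩ i • (bF i : N) := by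
        have h5 := congrArg F.subtype (bF.sum_repr ⟨c, h1⟩)
        rw [map_sum] at h5
        exact h5.symm
      conv_rhs => rw [h3]
      refine Finset.sum_congr rfl fun i _ => ?_
      rw [hy i, Finset.smul_sum]
    obtain ⟨a, ha⟩ := h2
    apply hc0
    apply Subtype.ext
    have h4 : R (c : N) = 0 := c.2
    rw [← ha, hRΦ] at h4
    rw [← ha, h4, map_zero]
    rfl
  have hbij : Function.Bijective Φ := ⟨hinj, fun x => ⟨R x, hRinj (by rw [hRΦ])⟩⟩
  refine ⟨r, (Pi.basisFun k (Fin r × P)).map (LinearEquiv.ofBijective Φ hbij), ?_⟩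
  intro g i h
  have h1 : ∀ x, Φ (Pi.basisFun k (Fin r × P) x) = v x := by
    intro x
    rw [hΦ, Finset.sum_eq_single x]
    · simp
    · intro z _ hz
      simp [Pi.basisFun_apply, Pi.single_eq_of_ne hz]
    · intro h2
      exact absurd (Finset.mem_univ _) h2
  rw [Basis.map_apply, Basis.map_apply, LinearEquiv.ofBijective_apply,
    LinearEquiv.ofBijective_apply, h1, h1, hv]

end Vale.P179.H580
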