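import Vale.Agent.P179.H580.Homm
import Vale.Agent.P179.H580.Tate

/-!
# The unique simple module and its endomorphisms
-/

namespace Vale.P179.H580

open Module Vale.P179.H445 Matrix
open scoped TensorProduct

/-! ## A trace like functional detects a block of size prime to `p` -/

section

variable {K : Type*} [Field K] {n : Type*} [Fintype n] [DecidableEq n]

theorem trace_like (f : Matrix n n K →ₗ[K] K) (hf : ∀ a b, f (a * b) = f (b * a)) (i : n) :
    f 1 = (Fintype.card n : K) * f (Matrix.single i i 1) := by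
  have h1 : ∀ a, f (Matrix.single a a 1) = f (Matrix.single i i 1) := by
    intro a
    have e1 : (Matrix.single a a 1 : Matrix n n K) = Matrix.single a i 1 * Matrix.single i a 1 := by
      rw [Matrix.single_mul_single_same, one_mul]
    have e2 : (Matrix.single i i 1 : Matrix n n K) = Matrix.single i a 1 * Matrix.single a i 1 := by
      rw [Matrix.single_mul_single_same, one_mul]
    rw [e1, e2, hf]
  have h2 : (1 : Matrix n n K) = ∑ a, Matrix.single a a 1 := by
    ext x y
    rw [Matrix.sum_apply]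
    by_cases hxy : x = y
    · subst hxy
      rw [Finset.sum_eq_single x]
      · simp
      · intro b _ hb
        rw [Matrix.single_apply, if_neg]
        rintro ⟨h3, -⟩
        exact hb h3
      · intro h3
        exact absurd (Finset.mem_univ _) h3
    · rw [Matrix.one_apply_ne hxy, Finset.sum_eq_zero]
      intro b _
      rw [Matrix.single_apply, if_neg]
      rintro ⟨h3, h4⟩
      exact hxy (h3.symm.trans h4)
  rw [h2, map_sum, Finset.sum_congr rfl fun a _ => h1 a, Finset.sum_const, Finset.card_univ,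
    nsmul_eq_mul]

end

/-- one of the blocks has size nonzero in `K` -/
theorem exists_block {K L : Type*} [Field K] [Ring L] [Algebra K L] {m : ℕ} {d : Fin m → ℕ}
    (π : L →ₐ[K] Π i, Matrix (Fin (d i)) (Fin (d i)) K) (hπ : Function.Surjective π)
    (hker : ∀ x, π x = 0 → IsNilpotent x) (φ : L →ₗ[K] K) (hc : ∀ a b, φ (a * b) = φ (b * a))
    (hn : ∀ x, IsNilpotent x → φ x = 0) (h1 : φ 1 = 1) : ∃ i, (d i : K) ≠ 0 := by
  classical
  by_contra hcon
  push Not at hcon
  obtain ⟨σ, hσ⟩ := π.toLinearMap.exists_rightInverse_of_surjective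
    (LinearMap.range_eq_top.2 hπ)
  have hσ' : ∀ x, π (σ x) = x := fun x => congrArg (fun f => f x) hσ
  have key : ∀ x y, π x = π y → φ x = φ y := by
    intro x y h
    rw [← sub_eq_zero, ← map_sub]
    exact hn _ (hker _ (by rw [map_sub, h, sub_self]))
  let ψ : ∀ i, Matrix (Fin (d i)) (Fin (d i)) K →ₗ[K] K := fun i =>
    φ ∘ₗ σ ∘ₗ LinearMap.single K (fun i => Matrix (Fin (d i)) (Fin (d i)) K) i
  have hψ : ∀ i x, ψ i x = φ (σ (Pi.single i x)) := fun i x => rfl
  have hψc : ∀ i (a b : Matrix (Fin (d i)) (Fin (d i)) K), ψ i (a * b) = ψ i (b * a) := by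
    intro i a b
    have s1 : ∀ a b : Matrix (Fin (d i)) (Fin (d i)) K,
        (Pi.single i (a * b) : Π i, Matrix (Fin (d i)) (Fin (d i)) K) =
          Pi.single i a * Pi.single i b := fun a b =>
      Pi.single_mul (α := fun i => Matrix (Fin (d i)) (Fin (d i)) K) i a b
    have e1 : ∀ x y : Π i, Matrix (Fin (d i)) (Fin (d i)) K, φ (σ (x * y)) = φ (σ x * σ y) :=
      fun x y => key _ _ (by rw [hσ', map_mul π, hσ', hσ'])
    rw [hψ, hψ, s1, s1, e1, e1, hc]
  have hψ1 : ∀ i, ψ i 1 = 0 := by
    intro i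
    by_cases hd : d i = 0
    · have : IsEmpty (Fin (d i)) := by rw [hd]; infer_instance
      rw [Subsingleton.elim (1 : Matrix (Fin (d i)) (Fin (d i)) K) 0, map_zero]
    · rw [trace_like (ψ i) (hψc i) ⟨0, Nat.pos_of_ne_zero hd⟩, Fintype.card_fin, hcon, zero_mul]
  have e3 : φ 1 = ∑ i, ψ i 1 := by
    have h2 : (1 : Π i, Matrix (Fin (d i)) (Fin (d i)) K) = ∑ i, Pi.single i 1 := by
      rw [Finset.univ_sum_single]
      rfl
    rw [key 1 (σ 1) (by rw [hσ', map_one]), h2, map_sum, map_sum]
    rfl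
  rw [h1, Finset.sum_eq_zero fun i _ => hψ1 i] at e3
  exact one_ne_zero e3

/-! ## The partial trace -/

section Partial

variable {K : Type*} [Field K] {m n : Type*} [Fintype m] [DecidableEq m] [Fintype n]
  [DecidableEq n]

/-- the partial trace of an endomorphism of the space of `m × n` matrices -/
def ptr (H : Matrix m n K → Matrix m n K) : Matrix m m K :=
  Matrix.of fun i j => ∑ a, H (Matrix.single j a 1) i a

omit [Fintype m] in
theorem ptr_apply (H : Matrix m n K → Matrix m n K) (i j : m) :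
    ptr H i j = ∑ a, H (Matrix.single j a 1) i a := rfl

omit [Fintype m] in
theorem ptr_id : ptr (fun X : Matrix m n K => X) = (Fintype.card n : K) • 1 := by
  ext i j
  simp only [ptr_apply, Matrix.smul_apply, Matrix.one_apply]
  by_cases h : i = j
  · subst h
    simp
  · rw [if_neg h, smul_zero]
    refine Finset.sum_eq_zero fun a _ => ?_
    rw [Matrix.single_apply, if_neg]
    rintro ⟨h1, -⟩
    exact h h1.symm

omit [Fintype m] in
theorem ptr_sum {ι : Type*} (s : Finset ι) (H : ι → (Matrix m n K → Matrix m n K)) :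
    ptr (fun X => ∑ i ∈ s, H i X) = ∑ i ∈ s, ptr (H i) := by
  ext i j
  rw [Matrix.sum_apply]
  simp only [ptr_apply]
  rw [Finset.sum_comm]
  refine Finset.sum_congr rfl fun a _ => ?_
  rw [Matrix.sum_apply]

theorem ptr_left (H : Matrix m n K → Matrix m n K) (A : Matrix m m K) :
    ptr (fun X => A * H X) = A * ptr H := by
  ext i j
  simp only [ptr_apply, Matrix.mul_apply, Finset.mul_sum]
  rw [Finset.sum_comm]

omit [Fintype n] in
theorem mul_single_eq (A : Matrix m m K) (j : m) (a : n) :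
    A * Matrix.single j a (1 : K) = ∑ b, A b j • Matrix.single b a (1 : K) := by
  ext x y
  rw [Matrix.sum_apply, Finset.sum_eq_single x]
  · rw [Matrix.smul_apply, Matrix.single_apply]
    by_cases hy : a = y
    · subst hy
      simp
    · rw [Matrix.mul_single_apply_of_ne _ _ _ _ _ (Ne.symm hy), if_neg, smul_zero]
      rintro ⟨-, h3⟩
      exact hy h3
  · intro b _ hb
    rw [Matrix.smul_apply, Matrix.single_apply, if_neg, smul_zero]
    rintro ⟨h3, -⟩
    exact hb h3
  · intro h3
    exact absurd (Finset.mem_univ _) h3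

omit [Fintype m] in
theorem single_mul_eq (B : Matrix n n K) (j : m) (a : n) :
    Matrix.single j a (1 : K) * B = ∑ c, B a c • Matrix.single j c (1 : K) := by
  ext x y
  rw [Matrix.sum_apply, Finset.sum_eq_single y]
  · rw [Matrix.smul_apply, Matrix.single_apply]
    by_cases hy : j = x
    · subst hy
      simp
    · rw [Matrix.single_mul_apply_of_ne _ _ _ _ _ (Ne.symm hy), if_neg, smul_zero]
      rintro ⟨h3, -⟩
      exact hy h3
  · intro b _ hb
    rw [Matrix.smul_apply, Matrix.single_apply, if_neg, smul_zero]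
    rintro ⟨-, h3⟩
    exact hb h3
  · intro h3
    exact absurd (Finset.mem_univ _) h3

theorem ptr_right (H : Matrix m n K →ₗ[K] Matrix m n K) (A : Matrix m m K) :
    ptr (fun X => H (A * X)) = ptr H * A := by
  ext i j
  rw [ptr_apply, Matrix.mul_apply]
  have h1 : ∀ a, H (A * Matrix.single j a (1 : K)) i a =
      ∑ b, H (Matrix.single b a 1) i a * A b j := by
    intro a
    rw [mul_single_eq, map_sum, Matrix.sum_apply]
    refine Finset.sum_congr rfl fun b _ => ?_
    rw [map_smul, Matrix.smul_apply, smul_eq_mul, mul_comm]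
  rw [Finset.sum_congr rfl fun a _ => h1 a, Finset.sum_comm]
  refine Finset.sum_congr rfl fun b _ => ?_
  rw [ptr_apply, Finset.sum_mul]

omit [Fintype m] in
theorem ptr_comm (H : Matrix m n K →ₗ[K] Matrix m n K) (B : Matrix n n K) :
    ptr (fun X => H (X * B)) = ptr (fun X => H X * B) := by
  ext i j
  rw [ptr_apply, ptr_apply]
  have h1 : ∀ a, H (Matrix.single j a (1 : K) * B) i a =
      ∑ b, B a b * H (Matrix.single j b 1) i a := by
    intro a
    rw [single_mul_eq, map_sum, Matrix.sum_apply]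
    refine Finset.sum_congr rfl fun b _ => ?_
    rw [map_smul, Matrix.smul_apply, smul_eq_mul]
  have h2 : ∀ a, (H (Matrix.single j a 1) * B) i a = ∑ b, B b a * H (Matrix.single j a 1) i b := by
    intro a
    rw [Matrix.mul_apply]
    exact Finset.sum_congr rfl fun b _ => mul_comm _ _
  rw [Finset.sum_congr rfl fun a _ => h1 a, Finset.sum_congr rfl fun a _ => h2 a,
    Finset.sum_comm]

/-- the partial trace of `X ↦ A * H (A' * X * B) * B'` if `B' * B = 1` -/
theorem ptr_conj (H : Matrix m n K →ₗ[K] Matrix m n K) (A A' : Matrix m m K)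
    (B B' : Matrix n n K) (hB : B' * B = 1) :
    ptr (fun X => A * (H (A' * X * B) * B')) = A * ptr H * A' := by
  rw [ptr_left]
  let G : Matrix m n K →ₗ[K] Matrix m n K :=
    { toFun := fun X => H (A' * X) * B'
      map_add' := fun X Y => by rw [Matrix.mul_add, map_add, Matrix.add_mul]
      map_smul' := fun c X => by
        rw [Matrix.mul_smul, map_smul, Matrix.smul_mul, RingHom.id_apply] }
  have h1 := ptr_comm G B
  have h2 : (fun X : Matrix m n K => G (X * B)) = fun X => H (A' * X * B) * B' := by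
    funext X
    change H (A' * (X * B)) * B' = _
    rw [Matrix.mul_assoc]
  have h3 : (fun X : Matrix m n K => G X * B) = fun X => H (A' * X) := by
    funext X
    change H (A' * X) * B' * B = _
    rw [Matrix.mul_assoc, hB, Matrix.mul_one]
  rw [h2, h3, ptr_right] at h1
  rw [h1, Matrix.mul_assoc]

end Partial

/-! ## The conjugation representations -/

section Conj

variable {K P : Type*} [Field K] [Group P] {m n : Type*} [Fintype m] [DecidableEq m] [Fintype n]
  [DecidableEq n]

/-- the action `X ↦ β g * X * α g⁻¹` -/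
def conjRep (α : P →* Matrix n n K) (β : P →* Matrix m m K) :
    Representation K P (Matrix m n K) where
  toFun g :=
    { toFun := fun X => β g * X * α g⁻¹
      map_add' := fun X Y => by rw [Matrix.mul_add, Matrix.add_mul]
      map_smul' := fun c X => by
        rw [Matrix.mul_smul, Matrix.smul_mul, RingHom.id_apply] }
  map_one' := by
    apply LinearMap.ext
    intro X
    simp
  map_mul' g h := by
    apply LinearMap.ext
    intro X
    simp [Matrix.mul_assoc]

theorem conjRep_apply (α : P →* Matrix n n K) (β : P →* Matrix m m K) (g : P)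
    (X : Matrix m n K) : conjRep α β g X = β g * X * α g⁻¹ := rfl

theorem mul_inv_of_hom (α : P →* Matrix n n K) (g : P) : α g * α g⁻¹ = 1 := by
  rw [← map_mul, mul_inv_cancel, map_one]

theorem inv_mul_of_hom (α : P →* Matrix n n K) (g : P) : α g⁻¹ * α g = 1 := by
  rw [← map_mul, inv_mul_cancel, map_one]

theorem conjRep_fixed_iff (α : P →* Matrix n n K) (β : P →* Matrix m m K) (g : P)
    (X : Matrix m n K) : conjRep α β g X = X ↔ β g * X = X * α g := by
  rw [conjRep_apply]
  constructor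
  · intro h
    conv_rhs => rw [← h]
    rw [Matrix.mul_assoc (β g * X), inv_mul_of_hom, Matrix.mul_one]
  · intro h
    rw [h, Matrix.mul_assoc, mul_inv_of_hom, Matrix.mul_one]

end Conj

/-! ## The relative statement for matrices -/

section Main

variable {K A L P : Type*} [Field K] [Ring A] [Algebra K A] [Ring L] [Algebra K L]
  [Group P] [Fintype P]
  {γ : P →* A} {ι : A →ₐ[K] L} {ρ : L →ₗ[K] A} {θ : L →ₗ[K] L}

/-- the group homomorphism into the matrices -/
def uhom (γ : P →* A) (ι : A →ₐ[K] L) {n : Type*} [Fintype n] [DecidableEq n]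
    (α : L →ₐ[K] Matrix n n K) : P →* Matrix n n K :=
  ((α.comp ι : A →ₐ[K] Matrix n n K) : A →* Matrix n n K).comp γ

omit [Fintype P] in
theorem uhom_apply (γ : P →* A) (ι : A →ₐ[K] L) {n : Type*} [Fintype n] [DecidableEq n]
    (α : L →ₐ[K] Matrix n n K) (g : P) : uhom γ ι α g = α (ι (γ g)) := rfl

theorem rel_matrix (R : Rel γ ι ρ θ) (hspan : Submodule.span K (Set.range γ) = ⊤) {r : ℕ}
    {s t : Fin r → L} (hst : ∑ i, s i * t i = 1)
    (hsep : ∀ b : L, (∑ i, (b * s i) ⊗ₜ[K] t i) - (∑ i, s i ⊗ₜ[K] (t i * b)) ∈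
      Submodule.span K {z : L ⊗[K] L | ∃ (x y : L) (h : A),
        z = (x * ι h) ⊗ₜ[K] y - x ⊗ₜ[K] (ι h * y)})
    {m n : Type*} [Fintype m] [DecidableEq m] [Fintype n] [DecidableEq n]
    (α : L →ₐ[K] Matrix n n K) (β : L →ₐ[K] Matrix m m K) (f : Matrix m n K)
    (hf : ∀ g, conjRep (uhom γ ι α) (uhom γ ι β) g f = f) :
    ∃ f' h : Matrix m n K, (∀ b, β b * f' = f' * α b) ∧
      f = f' + ∑ x, conjRep (uhom γ ι α) (uhom γ ι β) x h := by
  let lam : L →ₗ[K] Matrix m n K →ₗ[K] Matrix m n K :=
    LinearMap.mk₂ K (fun b X => β b * X)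
      (fun b b' X => by rw [map_add, Matrix.add_mul])
      (fun c b X => by rw [map_smul, Matrix.smul_mul])
      (fun b X X' => by rw [Matrix.mul_add])
      (fun c b X => by rw [Matrix.mul_smul])
  let rr : L →ₗ[K] Matrix m n K →ₗ[K] Matrix m n K :=
    LinearMap.mk₂ K (fun b X => X * α b)
      (fun b b' X => by rw [map_add, Matrix.mul_add])
      (fun c b X => by rw [map_smul, Matrix.mul_smul])
      (fun b X X' => by rw [Matrix.add_mul])
      (fun c b X => by rw [Matrix.smul_mul])
  have hlam : ∀ b X, lam b X = β b * X := fun b X => rfl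
  have hrr : ∀ b X, rr b X = X * α b := fun b X => rfl
  obtain ⟨f', h, h1, h2⟩ := rel_main R hspan hst hsep lam rr
    (fun v => by rw [hlam, map_one, Matrix.one_mul])
    (fun a b v => by rw [hlam, hlam, hlam, map_mul, Matrix.mul_assoc])
    (fun a b v => by rw [hrr, hrr, hrr, map_mul, Matrix.mul_assoc])
    (fun a b v => by rw [hlam, hlam, hrr, hrr, Matrix.mul_assoc])
    f (fun g => by
      rw [hlam, hrr]
      exact (conjRep_fixed_iff _ _ g f).1 (hf g))
  refine ⟨f', h, fun b => ?_, ?_⟩
  · have := h1 b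
    rwa [hlam, hrr] at this
  · conv_lhs => rw [h2]
    congr 1
    refine Finset.sum_congr rfl fun x _ => ?_
    rw [hlam, hrr, conjRep_apply, uhom_apply, uhom_apply, Matrix.mul_assoc]

/-- two different blocks, one of them of size nonzero in `K`, contradict the locality of the
commutant of `P` -/
theorem unique_block {p : ℕ} [Fact p.Prime] [CharP K p] (hP : IsPGroup p P)
    (R : Rel γ ι ρ θ) (hspan : Submodule.span K (Set.range γ) = ⊤) {r : ℕ}
    {s t : Fin r → L} (hst : ∑ i, s i * t i = 1)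
    (hsep : ∀ b : L, (∑ i, (b * s i) ⊗ₜ[K] t i) - (∑ i, s i ⊗ₜ[K] (t i * b)) ∈
      Submodule.span K {z : L ⊗[K] L | ∃ (x y : L) (h : A),
        z = (x * ι h) ⊗ₜ[K] y - x ⊗ₜ[K] (ι h * y)})
    (hloc : ∀ z : L, (∀ g, ι (γ g) * z = z * ι (γ g)) → IsUnit z ∨ IsNilpotent z)
    {m : ℕ} {d : Fin m → ℕ} (π : L →ₐ[K] Π i, Matrix (Fin (d i)) (Fin (d i)) K)
    (hπ : Function.Surjective π) {i0 i1 : Fin m} (h0 : (d i0 : K) ≠ 0) (h1 : d i1 ≠ 0) :
    i1 = i0 := by
  classical
  by_contra hne
  let α : L →ₐ[K] Matrix (Fin (d i0)) (Fin (d i0)) K := (Pi.evalAlgHom K _ i0).comp π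
  let β : L →ₐ[K] Matrix (Fin (d i1)) (Fin (d i1)) K := (Pi.evalAlgHom K _ i1).comp π
  have hα : ∀ x, α x = π x i0 := fun x => rfl
  have hβ : ∀ x, β x = π x i1 := fun x => rfl
  let C := conjRep (uhom γ ι α) (uhom γ ι β)
  have hN : ∀ X, (∀ g, C g X = X) → ∃ Y, X = ∑ g, C g Y := by
    intro X hX
    obtain ⟨f', h, hf', hX'⟩ := rel_matrix R hspan hst hsep α β X hX
    obtain ⟨b, hb⟩ := hπ (Pi.single i1 1)
    have e1 := hf' b
    rw [hα, hβ, hb, Pi.single_eq_same, Matrix.one_mul, Pi.single_eq_of_ne (Ne.symm hne),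
      Matrix.mul_zero] at e1
    refine ⟨h, ?_⟩
    rw [hX', e1, zero_add]
  obtain ⟨H, hH⟩ := tate hP C hN C LinearMap.id (fun g w => rfl)
  -- the partial trace of the identity
  have e2 : ((d i0 : K) • 1 : Matrix (Fin (d i1)) (Fin (d i1)) K) =
      ∑ g, β (ι (γ g)) * ptr H * β (ι (γ g⁻¹)) := by
    have e3 := ptr_id (K := K) (m := Fin (d i1)) (n := Fin (d i0))
    rw [Fintype.card_fin] at e3
    rw [← e3]
    have e4 : (fun X : Matrix (Fin (d i1)) (Fin (d i0)) K => X) = fun X => ∑ g,
        β (ι (γ g)) * (H (β (ι (γ g⁻¹)) * X * α (ι (γ g))) * α (ι (γ g⁻¹))) := by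
      funext X
      have e5 := congrArg (fun f => f X) hH
      simp only [LinearMap.id_apply] at e5
      conv_lhs => rw [e5]
      rw [trm_apply]
      refine Finset.sum_congr rfl fun g _ => ?_
      simp only [C]
      rw [conjRep_apply, conjRep_apply, uhom_apply, uhom_apply, uhom_apply, uhom_apply, inv_inv,
        Matrix.mul_assoc]
    rw [e4, ptr_sum]
    refine Finset.sum_congr rfl fun g _ => ?_
    rw [ptr_conj H _ _ _ _ (by rw [← map_mul, ← map_mul, ← map_mul, inv_mul_cancel, map_one,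
      map_one, map_one])]
  obtain ⟨a, ha⟩ := hπ (Pi.single i1 ((d i0 : K)⁻¹ • ptr H))
  let z : L := ∑ g, ι (γ g) * a * ι (γ g⁻¹)
  have hz : ∀ g, ι (γ g) * z = z * ι (γ g) := by
    intro g
    simp only [z]
    rw [Finset.mul_sum, Finset.sum_mul]
    refine Fintype.sum_equiv (Equiv.mulLeft g) _ _ fun x => ?_
    rw [Equiv.coe_mulLeft, map_mul γ, map_mul ι, _root_.mul_inv_rev, map_mul γ, map_mul ι]
    have : ι (γ g⁻¹) * ι (γ g) = 1 := by
      rw [← map_mul, ← map_mul, inv_mul_cancel, map_one, map_one]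
    simp only [mul_assoc]
    rw [this, mul_one]
  have hz0 : π z i0 = 0 := by
    simp only [z]
    rw [map_sum, Finset.sum_apply]
    refine Finset.sum_eq_zero fun g _ => ?_
    rw [map_mul, map_mul, ha, Pi.mul_apply, Pi.mul_apply, Pi.single_eq_of_ne (Ne.symm hne),
      mul_zero, zero_mul]
  have hz1 : π z i1 = 1 := by
    simp only [z]
    rw [map_sum, Finset.sum_apply]
    have e6 : ∀ g, π (ι (γ g) * a * ι (γ g⁻¹)) i1 =
        (d i0 : K)⁻¹ • (β (ι (γ g)) * ptr H * β (ι (γ g⁻¹))) := by
      intro g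
      rw [map_mul, map_mul, ha, Pi.mul_apply, Pi.mul_apply, Pi.single_eq_same, hβ, hβ,
        Matrix.mul_smul, Matrix.smul_mul]
    rw [Finset.sum_congr rfl fun g _ => e6 g, ← Finset.smul_sum, ← e2, smul_smul,
      inv_mul_cancel₀ h0, one_smul]
  have hd0 : d i0 ≠ 0 := by
    rintro h
    rw [h, Nat.cast_zero] at h0
    exact h0 rfl
  have : Nonempty (Fin (d i0)) := ⟨⟨0, Nat.pos_of_ne_zero hd0⟩⟩
  have : Nonempty (Fin (d i1)) := ⟨⟨0, Nat.pos_of_ne_zero h1⟩⟩
  rcases hloc z hz with h | h
  · have h2 := (h.map π).map (Pi.evalMonoidHom _ i0)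
    have h3 : IsUnit (π z i0) := h2
    rw [hz0] at h3
    exact not_isUnit_zero h3
  · obtain ⟨N, hN'⟩ := h
    have h2 : (π z i1) ^ N = 0 := by
      rw [← Pi.pow_apply, ← map_pow, hN', map_zero, Pi.zero_apply]
    rw [hz1, one_pow] at h2
    exact one_ne_zero h2

end Main

end Vale.P179.H580
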