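import Vale.Agent.P179.H580.Block

/-!
# The unique simple module is endotrivial
-/

namespace Vale.P179.H580

open Module Vale.P179.H445 Matrix
open scoped TensorProduct

/-- a matrix commuting with everything is a scalar -/
theorem scalar_of_comm {K n : Type*} [Field K] [Fintype n] [DecidableEq n] (X : Matrix n n K)
    (h : ∀ Y, Y * X = X * Y) : ∃ c : K, X = c • 1 := by
  rcases isEmpty_or_nonempty n with hn | ⟨⟨i⟩⟩
  · exact ⟨0, Subsingleton.elim _ _⟩
  · refine ⟨X i i, ?_⟩
    ext a b
    have h2 := congrFun (congrFun (h (Matrix.single i a 1)) i) b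
    rw [Matrix.single_mul_apply_same, one_mul] at h2
    rw [h2]
    by_cases hab : a = b
    · subst hab
      rw [Matrix.mul_single_apply_same, Matrix.smul_apply, Matrix.one_apply_eq, smul_eq_mul]
    · rw [Matrix.mul_single_apply_of_ne _ _ _ _ _ (Ne.symm hab), Matrix.smul_apply,
        Matrix.one_apply_ne hab, smul_zero]

section

variable {K A L P : Type*} [Field K] [Ring A] [Algebra K A] [Ring L] [Algebra K L]
  [Group P] [Fintype P]
  {γ : P →* A} {ι : A →ₐ[K] L} {ρ : L →ₗ[K] A} {θ : L →ₗ[K] L}

/-- the trace zero matrices -/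
def N0 (K n : Type*) [Field K] [Fintype n] [DecidableEq n] : Submodule K (Matrix n n K) :=
  LinearMap.ker (Matrix.traceLinearMap n K K)

theorem mem_N0 {K n : Type*} [Field K] [Fintype n] [DecidableEq n] (X : Matrix n n K) :
    X ∈ N0 K n ↔ Matrix.trace X = 0 := Iff.rfl

omit [Fintype P] in
theorem trace_conj {n : Type*} [Fintype n] [DecidableEq n] (α : P →* Matrix n n K) (g : P)
    (X : Matrix n n K) : Matrix.trace (conjRep α α g X) = Matrix.trace X := by
  rw [conjRep_apply, Matrix.trace_mul_comm, ← Matrix.mul_assoc, inv_mul_of_hom, Matrix.one_mul]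

/-- the conjugation action on the trace zero matrices -/
def rep0 {n : Type*} [Fintype n] [DecidableEq n] (α : P →* Matrix n n K) :
    Representation K P (N0 K n) where
  toFun g := (conjRep α α g).restrict (fun X hX => by
    rw [mem_N0] at hX ⊢
    rw [trace_conj, hX])
  map_one' := by
    apply LinearMap.ext
    intro X
    apply Subtype.ext
    simp [LinearMap.restrict_apply]
  map_mul' g h := by
    apply LinearMap.ext
    intro X
    apply Subtype.ext
    simp [LinearMap.restrict_apply]

omit [Fintype P] in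
theorem rep0_apply {n : Type*} [Fintype n] [DecidableEq n] (α : P →* Matrix n n K) (g : P)
    (X : N0 K n) : ((rep0 α g X : N0 K n) : Matrix n n K) = α g * X * α g⁻¹ := rfl

/-- fixed trace zero matrices are traces of trace zero matrices -/
theorem fixed0 (R : Rel γ ι ρ θ) (hspan : Submodule.span K (Set.range γ) = ⊤) {r : ℕ}
    {s t : Fin r → L} (hst : ∑ i, s i * t i = 1)
    (hsep : ∀ b : L, (∑ i, (b * s i) ⊗ₜ[K] t i) - (∑ i, s i ⊗ₜ[K] (t i * b)) ∈
      Submodule.span K {z : L ⊗[K] L | ∃ (x y : L) (h : A),
        z = (x * ι h) ⊗ₜ[K] y - x ⊗ₜ[K] (ι h * y)})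
    (hcard : (Fintype.card P : K) = 0)
    {n : Type*} [Fintype n] [DecidableEq n] (α : L →ₐ[K] Matrix n n K)
    (hα : Function.Surjective α) (hn : (Fintype.card n : K) ≠ 0) (X : N0 K n)
    (hX : ∀ g, rep0 (uhom γ ι α) g X = X) : ∃ Y, X = ∑ g, rep0 (uhom γ ι α) g Y := by
  obtain ⟨f', h, hf', hX'⟩ := rel_matrix R hspan hst hsep α α (X : Matrix n n K)
    (fun g => congrArg Subtype.val (hX g))
  obtain ⟨c, rfl⟩ := scalar_of_comm f' (fun Y => by
    obtain ⟨b, rfl⟩ := hα Y
    exact hf' b)
  have h1 : Matrix.trace (X : Matrix n n K) = 0 := X.2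
  have hc : c = 0 := by
    rw [hX', Matrix.trace_add, Matrix.trace_smul, Matrix.trace_one, Matrix.trace_sum,
      Finset.sum_congr rfl fun g _ => trace_conj _ g h, Finset.sum_const, Finset.card_univ,
      nsmul_eq_mul, hcard, zero_mul, add_zero, smul_eq_mul] at h1
    exact (mul_eq_zero.1 h1).resolve_right hn
  let Y : Matrix n n K := h - (Matrix.trace h / (Fintype.card n : K)) • 1
  have hY : Y ∈ N0 K n := by
    rw [mem_N0]
    simp only [Y]
    rw [Matrix.trace_sub, Matrix.trace_smul, Matrix.trace_one, smul_eq_mul,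
      div_mul_cancel₀ _ hn, sub_self]
  refine ⟨⟨Y, hY⟩, ?_⟩
  apply Subtype.ext
  rw [Submodule.coe_sum]
  have h2 : ∀ g, ((rep0 (uhom γ ι α) g ⟨Y, hY⟩ : N0 K n) : Matrix n n K) =
      conjRep (uhom γ ι α) (uhom γ ι α) g h - (Matrix.trace h / (Fintype.card n : K)) • 1 := by
    intro g
    change conjRep (uhom γ ι α) (uhom γ ι α) g Y = _
    simp only [Y]
    rw [map_sub, map_smul]
    congr 2
    rw [conjRep_fixed_iff, Matrix.one_mul, Matrix.mul_one]
  rw [Finset.sum_congr rfl fun g _ => h2 g, Finset.sum_sub_distrib, Finset.sum_const,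
    Finset.card_univ, ← Nat.cast_smul_eq_nsmul K, hcard, zero_smul, sub_zero]
  conv_lhs => rw [hX', hc]
  rw [zero_smul, zero_add]

end

/-- The matrices are the scalars plus a free module. -/
theorem exists_basis0 {p : ℕ} [Fact p.Prime] {K P : Type*} [Field K] [CharP K p] [Group P]
    [Fintype P] (hP : IsPGroup p P) {n : Type*} [Fintype n] [DecidableEq n]
    (α : P →* Matrix n n K) (hn : (Fintype.card n : K) ≠ 0)
    (hfix : ∀ X, (∀ g, rep0 α g X = X) → ∃ Y, X = ∑ g, rep0 α g Y) :
    ∃ (r : ℕ) (b : Basis (Option (Fin r × P)) K (Matrix n n K)), b none = 1 ∧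
      ∀ g i h, α g * b (some (i, h)) * α g⁻¹ = b (some (i, g * h)) := by
  obtain ⟨r, b0, hb0⟩ := exists_free_basis hP (rep0 α) hfix
  have key : ∀ X : Matrix n n K,
      X - (Matrix.trace X / (Fintype.card n : K)) • (1 : Matrix n n K) ∈ N0 K n := fun X => by
    rw [mem_N0, Matrix.trace_sub, Matrix.trace_smul, Matrix.trace_one, smul_eq_mul,
      div_mul_cancel₀ _ hn, sub_self]
  let e : Matrix n n K ≃ₗ[K] (N0 K n × K) :=
    { toFun := fun X => (⟨X - (Matrix.trace X / (Fintype.card n : K)) • 1, key X⟩,
        Matrix.trace X / (Fintype.card n : K))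
      map_add' := fun X Y => by
        refine Prod.ext (Subtype.ext ?_) ?_
        · change X + Y - (Matrix.trace (X + Y) / (Fintype.card n : K)) • (1 : Matrix n n K) =
            (X - (Matrix.trace X / (Fintype.card n : K)) • 1) +
              (Y - (Matrix.trace Y / (Fintype.card n : K)) • 1)
          rw [Matrix.trace_add, add_div, add_smul]
          abel
        · change Matrix.trace (X + Y) / (Fintype.card n : K) = _ / _ + _ / _
          rw [Matrix.trace_add, add_div]
      map_smul' := fun c X => by
        refine Prod.ext (Subtype.ext ?_) ?_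
        · change c • X - (Matrix.trace (c • X) / (Fintype.card n : K)) • (1 : Matrix n n K) =
            c • (X - (Matrix.trace X / (Fintype.card n : K)) • 1)
          rw [Matrix.trace_smul, smul_eq_mul, mul_div_assoc, smul_sub, smul_smul]
        · change Matrix.trace (c • X) / (Fintype.card n : K) = c • (_ / _)
          rw [Matrix.trace_smul, smul_eq_mul, smul_eq_mul, mul_div_assoc]
      invFun := fun x => x.1 + x.2 • 1
      left_inv := fun X => by
        change X - (Matrix.trace X / (Fintype.card n : K)) • 1 +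
          (Matrix.trace X / (Fintype.card n : K)) • 1 = X
        rw [sub_add_cancel]
      right_inv := fun x => by
        have h1 : Matrix.trace ((x.1 : Matrix n n K) + x.2 • 1) / (Fintype.card n : K) = x.2 := by
          have h2 : Matrix.trace (x.1 : Matrix n n K) = 0 := x.1.2
          rw [Matrix.trace_add, h2, Matrix.trace_smul, Matrix.trace_one, zero_add, smul_eq_mul,
            mul_div_assoc, div_self hn, mul_one]
        refine Prod.ext (Subtype.ext ?_) h1
        change (x.1 : Matrix n n K) + x.2 • 1 -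
          (Matrix.trace ((x.1 : Matrix n n K) + x.2 • 1) / (Fintype.card n : K)) • 1 = x.1
        rw [h1, add_sub_cancel_right] }
  have he : ∀ x, e.symm x = (x.1 : Matrix n n K) + x.2 • 1 := fun x => rfl
  let b := ((b0.prod (Basis.singleton PUnit.{1} K)).map e.symm).reindex
    (Equiv.optionEquivSumPUnit (Fin r × P)).symm
  have hbn : b none = 1 := by
    simp only [b]
    rw [Basis.reindex_apply, Equiv.symm_symm, Equiv.optionEquivSumPUnit_none, Basis.map_apply,
      Basis.prod_apply, he]
    simp
  have hbs : ∀ x, b (some x) = (b0 x : Matrix n n K) := by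
    intro x
    simp only [b]
    rw [Basis.reindex_apply, Equiv.symm_symm, Equiv.optionEquivSumPUnit_some, Basis.map_apply,
      Basis.prod_apply, he]
    simp
  refine ⟨r, b, hbn, fun g i h => ?_⟩
  rw [hbs, hbs, ← hb0 g i h, rep0_apply]

end Vale.P179.H580
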