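import Vale.Agent.P179.H445.Twist

/-!
# Maps commuting with `P` are linear up to relative traces

`L` is an algebra with an algebra map `ι : A → L`, `A` spanned by the image of a finite group `P`,
relative data in Higman form and a separability element of `L` over `A`.  For every bimodule `E`
and every `f` in `E` commuting with `P` there are `g` commuting with `L` and `h` such that
`f = g + ∑ x, x * h * x⁻¹`.
-/

namespace Vale.P179.H580

open Module Vale.P179.H445
open scoped TensorProduct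

section

variable {K A L P E : Type*} [Field K] [Ring A] [Algebra K A] [Ring L] [Algebra K L]
  [Group P] [Fintype P] [AddCommGroup E] [Module K E]
  {γ : P →* A} {ι : A →ₐ[K] L} {ρ : L →ₗ[K] A} {θ : L →ₗ[K] L}

omit [Fintype P] in
/-- balanced bilinear maps and the separability element -/
theorem balanced (hspan : Submodule.span K (Set.range γ) = ⊤) {m : ℕ} {s t : Fin m → L}
    (hsep : ∀ b : L, (∑ i, (b * s i) ⊗ₜ[K] t i) - (∑ i, s i ⊗ₜ[K] (t i * b)) ∈
      Submodule.span K {z : L ⊗[K] L | ∃ (x y : L) (h : A),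
        z = (x * ι h) ⊗ₜ[K] y - x ⊗ₜ[K] (ι h * y)})
    (T : L →ₗ[K] L →ₗ[K] E) (hT : ∀ x y g, T (x * ι (γ g)) y = T x (ι (γ g) * y)) (b : L) :
    ∑ i, T (b * s i) (t i) = ∑ i, T (s i) (t i * b) := by
  have hT' : ∀ (h : A) (x y : L), T (x * ι h) y = T x (ι h * y) := by
    intro h
    have hh : h ∈ Submodule.span K (Set.range γ) := by rw [hspan]; trivial
    induction hh using Submodule.span_induction with
    | mem a ha =>
      obtain ⟨g, rfl⟩ := ha
      exact fun x y => hT x y g
    | zero => intro x y; simp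
    | add a a' _ _ ha ha' =>
      intro x y
      rw [map_add, mul_add, add_mul, map_add, map_add, LinearMap.add_apply, ha, ha']
    | smul c a _ ha =>
      intro x y
      rw [map_smul, mul_smul_comm, smul_mul_assoc, map_smul, map_smul, LinearMap.smul_apply, ha]
  have h1 : ∀ z ∈ Submodule.span K {z : L ⊗[K] L | ∃ (x y : L) (h : A),
      z = (x * ι h) ⊗ₜ[K] y - x ⊗ₜ[K] (ι h * y)}, TensorProduct.lift T z = 0 := by
    intro z hz
    induction hz using Submodule.span_induction with
    | mem a ha =>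
      obtain ⟨x, y, h, rfl⟩ := ha
      rw [map_sub, TensorProduct.lift.tmul, TensorProduct.lift.tmul, hT', sub_self]
    | zero => simp
    | add a a' _ _ ha ha' => rw [map_add, ha, ha', add_zero]
    | smul c a _ ha => rw [map_smul, ha, smul_zero]
  have h2 := h1 _ (hsep b)
  rw [map_sub, map_sum, map_sum, sub_eq_zero] at h2
  simpa only [TensorProduct.lift.tmul] using h2

/-- the bimodule form of the theorem -/
theorem rel_main (R : Rel γ ι ρ θ) (hspan : Submodule.span K (Set.range γ) = ⊤) {m : ℕ}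
    {s t : Fin m → L} (hst : ∑ i, s i * t i = 1)
    (hsep : ∀ b : L, (∑ i, (b * s i) ⊗ₜ[K] t i) - (∑ i, s i ⊗ₜ[K] (t i * b)) ∈
      Submodule.span K {z : L ⊗[K] L | ∃ (x y : L) (h : A),
        z = (x * ι h) ⊗ₜ[K] y - x ⊗ₜ[K] (ι h * y)})
    (lam : L →ₗ[K] E →ₗ[K] E) (rr : L →ₗ[K] E →ₗ[K] E)
    (l1 : ∀ v, lam 1 v = v) (lm : ∀ a b v, lam (a * b) v = lam a (lam b v))
    (rm : ∀ a b v, rr (a * b) v = rr b (rr a v))
    (lr : ∀ a b v, lam a (rr b v) = rr b (lam a v))
    (f : E) (hf : ∀ g, lam (ι (γ g)) f = rr (ι (γ g)) f) :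
    ∃ f' h : E, (∀ b, lam b f' = rr b f') ∧
      f = f' + ∑ x : P, lam (ι (γ x)) (rr (ι (γ x⁻¹)) h) := by
  classical
  have hfA : ∀ a : A, lam (ι a) f = rr (ι a) f := by
    intro a
    have ha : a ∈ Submodule.span K (Set.range γ) := by rw [hspan]; trivial
    induction ha using Submodule.span_induction with
    | mem a ha =>
      obtain ⟨g, rfl⟩ := ha
      exact hf g
    | zero => simp
    | add a a' _ _ ha ha' =>
      rw [map_add, map_add, map_add, LinearMap.add_apply, LinearMap.add_apply, ha, ha']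
    | smul c a _ ha =>
      rw [map_smul, map_smul, map_smul, LinearMap.smul_apply, LinearMap.smul_apply, ha]
  have uinv : ∀ x : P, ι (γ x) * ι (γ x⁻¹) = 1 := fun x => by
    rw [← map_mul, ← map_mul, mul_inv_cancel, map_one, map_one]
  -- first balanced map
  let T0 : L →ₗ[K] L →ₗ[K] E :=
    LinearMap.mk₂ K (fun x y => lam x (rr y f))
      (fun x x' y => by rw [map_add, LinearMap.add_apply])
      (fun c x y => by rw [map_smul, LinearMap.smul_apply])
      (fun x y y' => by rw [map_add, LinearMap.add_apply, map_add])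
      (fun c x y => by rw [map_smul, LinearMap.smul_apply, map_smul])
  have hT0 : ∀ x y, T0 x y = lam x (rr y f) := fun x y => rfl
  have bT0 : ∀ x y g, T0 (x * ι (γ g)) y = T0 x (ι (γ g) * y) := by
    intro x y g
    rw [hT0, hT0, lm, rm, lr, hf]
  -- second balanced map
  let T1 : L →ₗ[K] L →ₗ[K] L :=
    LinearMap.mk₂ K (fun a b => ∑ x : P, a * ι (γ x) * θ (ι (γ x⁻¹) * b))
      (fun a a' b => by simp only [add_mul, Finset.sum_add_distrib])
      (fun c a b => by simp only [smul_mul_assoc, Finset.smul_sum])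
      (fun a b b' => by simp only [mul_add, map_add, Finset.sum_add_distrib])
      (fun c a b => by simp only [mul_smul_comm, map_smul, Finset.smul_sum])
  have hT1 : ∀ a b, T1 a b = ∑ x : P, a * ι (γ x) * θ (ι (γ x⁻¹) * b) := fun a b => rfl
  have bT1 : ∀ a b g, T1 (a * ι (γ g)) b = T1 a (ι (γ g) * b) := by
    intro a b g
    rw [hT1, hT1, ← Equiv.sum_comp (Equiv.mulLeft g)
      (fun x => a * ι (γ x) * θ (ι (γ x⁻¹) * (ι (γ g) * b)))]
    refine Finset.sum_congr rfl fun x _ => ?_
    rw [Equiv.coe_mulLeft, map_mul γ, map_mul ι, ← mul_assoc a, mul_inv_rev, map_mul γ, map_mul ι,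
      mul_assoc (ι (γ x⁻¹)), ← mul_assoc (ι (γ g⁻¹))]
    have : ι (γ g⁻¹) * ι (γ g) = 1 := by
      rw [← map_mul, ← map_mul, inv_mul_cancel, map_one, map_one]
    rw [this, one_mul]
  -- third balanced map
  let T2 : L →ₗ[K] L →ₗ[K] E :=
    LinearMap.mk₂ K (fun a b => ∑ x : P, lam (a * ι (γ x)) (rr (θ (ι (γ x⁻¹) * b)) f))
      (fun a a' b => by
        simp only [add_mul, map_add, LinearMap.add_apply, Finset.sum_add_distrib])
      (fun c a b => by
        simp only [smul_mul_assoc, map_smul, LinearMap.smul_apply, Finset.smul_sum])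
      (fun a b b' => by
        simp only [mul_add, map_add, LinearMap.add_apply, Finset.sum_add_distrib])
      (fun c a b => by
        simp only [mul_smul_comm, map_smul, LinearMap.smul_apply, Finset.smul_sum])
  have hT2 : ∀ a b, T2 a b = ∑ x : P, lam (a * ι (γ x)) (rr (θ (ι (γ x⁻¹) * b)) f) :=
    fun a b => rfl
  have bT2 : ∀ a b g, T2 (a * ι (γ g)) b = T2 a (ι (γ g) * b) := by
    intro a b g
    rw [hT2, hT2, ← Equiv.sum_comp (Equiv.mulLeft g)
      (fun x => lam (a * ι (γ x)) (rr (θ (ι (γ x⁻¹) * (ι (γ g) * b))) f))]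
    refine Finset.sum_congr rfl fun x _ => ?_
    rw [Equiv.coe_mulLeft, map_mul γ, map_mul ι, ← mul_assoc a, mul_inv_rev, map_mul γ, map_mul ι,
      mul_assoc (ι (γ x⁻¹)), ← mul_assoc (ι (γ g⁻¹))]
    have : ι (γ g⁻¹) * ι (γ g) = 1 := by
      rw [← map_mul, ← map_mul, inv_mul_cancel, map_one, map_one]
    rw [this, one_mul]
  let f' : E := ∑ i, T0 (s i) (t i)
  let d : L := ∑ i, T1 (s i) (t i)
  let H1 : E := ∑ i, T2 (s i) (t i)
  refine ⟨f', lam d f - H1, ?_, ?_⟩
  · intro b
    have h1 := balanced hspan hsep T0 bT0 b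
    have h2 : lam b f' = ∑ i, T0 (b * s i) (t i) := by
      simp only [f', map_sum]
      exact Finset.sum_congr rfl fun i _ => by rw [hT0, hT0, lm]
    have h3 : rr b f' = ∑ i, T0 (s i) (t i * b) := by
      simp only [f', map_sum]
      exact Finset.sum_congr rfl fun i _ => by rw [hT0, hT0, ← lr, rm]
    rw [h2, h1, h3]
  · -- `f = ∑ λ (s i * t i) f`
    have e1 : f = ∑ i, lam (s i * t i) f := by
      rw [← LinearMap.sum_apply, ← map_sum, hst, l1]
    have ti : ∀ i, t i = ι (ρ (t i)) +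
        ∑ x : P, ∑ y : P, ι (γ x) * θ (ι (γ x⁻¹) * t i * ι (γ y)) * ι (γ y⁻¹) := fun i => by
      rw [R.hig]
      abel
    have e2 : ∀ i, lam (s i * t i) f = T0 (s i) (ι (ρ (t i))) +
        ∑ y : P, lam (T1 (s i) (t i * ι (γ y)) * ι (γ y⁻¹)) f := by
      intro i
      conv_lhs => rw [ti i]
      rw [mul_add, map_add, LinearMap.add_apply]
      congr 1
      · rw [lm, hfA, hT0]
      · rw [Finset.sum_comm, Finset.mul_sum, map_sum, LinearMap.sum_apply]
        refine Finset.sum_congr rfl fun y _ => ?_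
        rw [hT1, Finset.mul_sum, Finset.sum_mul]
        congr 2
        refine Finset.sum_congr rfl fun x _ => ?_
        rw [mul_assoc (ι (γ x⁻¹)) (t i), ← mul_assoc (s i), ← mul_assoc (s i)]
    have e3 : ∀ i, T0 (s i) (t i) = T0 (s i) (ι (ρ (t i))) +
        ∑ y : P, rr (ι (γ y⁻¹)) (T2 (s i) (t i * ι (γ y))) := by
      intro i
      conv_lhs => rw [ti i]
      rw [map_add]
      congr 1
      rw [Finset.sum_comm, map_sum]
      refine Finset.sum_congr rfl fun y _ => ?_
      rw [hT2, map_sum, map_sum]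
      refine Finset.sum_congr rfl fun x _ => ?_
      rw [hT0, rm, rm, ← hf, lr (s i) (ι (γ y⁻¹)), ← lr (ι (γ x)), ← lm,
        mul_assoc (ι (γ x⁻¹)) (t i)]
    have e4 : f = f' + (∑ y : P, ∑ i, lam (T1 (s i) (t i * ι (γ y)) * ι (γ y⁻¹)) f
        - ∑ y : P, ∑ i, rr (ι (γ y⁻¹)) (T2 (s i) (t i * ι (γ y)))) := by
      rw [Finset.sum_comm, Finset.sum_comm (f := fun y i => rr (ι (γ y⁻¹)) (T2 (s i) (t i * ι (γ y))))]
      conv_lhs => rw [e1]
      rw [← Finset.sum_sub_distrib, ← Finset.sum_add_distrib]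
      refine Finset.sum_congr rfl fun i _ => ?_
      rw [e2, e3]
      abel
    rw [← Finset.sum_sub_distrib] at e4
    conv_lhs => rw [e4]
    congr 1
    refine Finset.sum_congr rfl fun y _ => ?_
    have e5 : ∑ i, lam (T1 (s i) (t i * ι (γ y)) * ι (γ y⁻¹)) f =
        lam (ι (γ y)) (rr (ι (γ y⁻¹)) (lam d f)) := by
      have h1 := balanced hspan hsep T1 bT1 (ι (γ y))
      have h2 : ∑ i, T1 (ι (γ y) * s i) (t i) = ι (γ y) * d := by
        simp only [d, Finset.mul_sum]
        refine Finset.sum_congr rfl fun i _ => ?_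
        rw [hT1, hT1, Finset.mul_sum]
        refine Finset.sum_congr rfl fun x _ => ?_
        simp only [mul_assoc]
      rw [← LinearMap.sum_apply, ← map_sum, ← Finset.sum_mul, ← h1, h2, lm, hf, lm, lr d]
    have e6 : ∑ i, rr (ι (γ y⁻¹)) (T2 (s i) (t i * ι (γ y))) =
        lam (ι (γ y)) (rr (ι (γ y⁻¹)) H1) := by
      have h1 := balanced hspan hsep T2 bT2 (ι (γ y))
      have h2 : ∑ i, T2 (ι (γ y) * s i) (t i) = lam (ι (γ y)) H1 := by
        simp only [H1, map_sum]
        refine Finset.sum_congr rfl fun i _ => ?_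
        rw [hT2, hT2, map_sum]
        refine Finset.sum_congr rfl fun x _ => ?_
        rw [mul_assoc, lm]
      rw [← map_sum, ← h1, h2, lr]
    rw [e5, e6, map_sub, map_sub]

end

end Vale.P179.H580
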