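import Vale.Agent.P179.H580.Endo

/-!
# Module Y1: the unique simple module and its endomorphisms
-/

namespace Vale.P179.H580

open Module Vale.P179.H445 Matrix
open scoped TensorProduct

/-- the semisimple quotient, blocks of positive size -/
theorem exists_pi_matrix' {K : Type*} [Field K] {A : Type*} [Ring A] [Algebra K A]
    [IsAlgClosed K] [FiniteDimensional K A] :
    ∃ (m : ℕ) (d : Fin m → ℕ) (π : A →ₐ[K] Π i, Matrix (Fin (d i)) (Fin (d i)) K),
      (∀ i, d i ≠ 0) ∧ Function.Surjective π ∧ ∀ x, π x = 0 → IsNilpotent x := by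
  have := IsArtinianRing.of_finite K A
  have hss : IsSemisimpleRing (A ⧸ Ring.jacobson A) := inferInstance
  obtain ⟨m, d, hd, ⟨E⟩⟩ :=
    IsSemisimpleRing.exists_algEquiv_pi_matrix_of_isAlgClosed K (A ⧸ Ring.jacobson A)
  refine ⟨m, d, E.toAlgHom.comp (Ideal.Quotient.mkₐ K (Ring.jacobson A)),
    fun i => (hd i).out, ?_, ?_⟩
  · exact E.surjective.comp (Ideal.Quotient.mkₐ_surjective K _)
  · intro x hx
    have h1 : E (Ideal.Quotient.mk _ x) = 0 := hx
    rw [map_eq_zero_iff E E.injective, Ideal.Quotient.eq_zero_iff_mem] at h1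
    obtain ⟨N, hN⟩ := IsSemiprimaryRing.isNilpotent (R := A)
    have h2 : x ^ N ∈ Ring.jacobson A ^ N := Ideal.pow_mem_pow h1 N
    rw [hN] at h2
    exact ⟨N, h2⟩

/-- **Y1**: if `L` has relative data over `P` and the commutant of `P` in `L` is local, then `L`
has a unique simple module; its dimension is nonzero in `K` and its endomorphisms are the scalars
plus a free module. -/
theorem y1 {p : ℕ} [Fact p.Prime] {K A L P : Type*} [Field K] [IsAlgClosed K] [CharP K p]
    [Ring A] [Algebra K A] [Ring L] [Algebra K L] [FiniteDimensional K L]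
    [Group P] [Fintype P] (hP : IsPGroup p P)
    {γ : P →* A} {ι : A →ₐ[K] L} {ρ : L →ₗ[K] A} {θ : L →ₗ[K] L}
    (R : Rel γ ι ρ θ) (hspan : Submodule.span K (Set.range γ) = ⊤) {r : ℕ}
    {s t : Fin r → L} (hst : ∑ i, s i * t i = 1)
    (hsep : ∀ b : L, (∑ i, (b * s i) ⊗ₜ[K] t i) - (∑ i, s i ⊗ₜ[K] (t i * b)) ∈
      Submodule.span K {z : L ⊗[K] L | ∃ (x y : L) (h : A),
        z = (x * ι h) ⊗ₜ[K] y - x ⊗ₜ[K] (ι h * y)})
    (hcard : (Fintype.card P : K) = 0)
    (hloc : ∀ z : L, (∀ g, ι (γ g) * z = z * ι (γ g)) → IsUnit z ∨ IsNilpotent z)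
    (φ : L →ₗ[K] K) (hc : ∀ a b, φ (a * b) = φ (b * a))
    (hn : ∀ x, IsNilpotent x → φ x = 0) (h1 : φ 1 = 1) :
    ∃ (n : ℕ) (π : L →ₐ[K] Matrix (Fin n) (Fin n) K), Function.Surjective π ∧
      (∀ x, π x = 0 → IsNilpotent x) ∧ (n : K) ≠ 0 ∧
      (∃ (q : ℕ) (b : Basis (Option (Fin q × P)) K (Matrix (Fin n) (Fin n) K)), b none = 1 ∧
        ∀ g i h, π (ι (γ g)) * b (some (i, h)) * π (ι (γ g⁻¹)) = b (some (i, g * h))) ∧
      ∃ h : Matrix (Fin n) (Fin n) K →ₗ[K] Matrix (Fin n) (Fin n) K, ∀ f,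
        f - (Matrix.trace f / (n : K)) • 1 =
          ∑ g, π (ι (γ g)) * h (π (ι (γ g⁻¹)) * f * π (ι (γ g))) * π (ι (γ g⁻¹)) := by
  classical
  obtain ⟨m, d, pr, hd, hpr, hker⟩ := exists_pi_matrix' (K := K) (A := L)
  obtain ⟨i0, h0⟩ := exists_block pr hpr hker φ hc hn h1
  have huniq : ∀ i, i = i0 := fun i =>
    unique_block hP R hspan hst hsep hloc pr hpr h0 (hd i)
  let π : L →ₐ[K] Matrix (Fin (d i0)) (Fin (d i0)) K := (Pi.evalAlgHom K _ i0).comp pr
  have hπ : ∀ x, π x = pr x i0 := fun x => rfl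
  have hsurj : Function.Surjective π := by
    intro X
    obtain ⟨b, hb⟩ := hpr (Pi.single i0 X)
    exact ⟨b, by rw [hπ, hb, Pi.single_eq_same]⟩
  have hcardn : (Fintype.card (Fin (d i0)) : K) ≠ 0 := by rwa [Fintype.card_fin]
  have hfix := fixed0 R hspan hst hsep hcard π hsurj hcardn
  obtain ⟨q, b, hb1, hb2⟩ := exists_basis0 hP (uhom γ ι π) hcardn hfix
  refine ⟨d i0, π, hsurj, ?_, h0, ⟨q, b, hb1, hb2⟩, ?_⟩
  · intro x hx
    apply hker
    funext i
    rw [huniq i]
    exact hx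
  · -- the map `f ↦ f - (trace f / n) • 1` to the trace zero matrices
    let F : Matrix (Fin (d i0)) (Fin (d i0)) K →ₗ[K] N0 K (Fin (d i0)) :=
      { toFun := fun f => ⟨f - (Matrix.trace f / (d i0 : K)) • 1, by
          rw [mem_N0, Matrix.trace_sub, Matrix.trace_smul, Matrix.trace_one, smul_eq_mul,
            Fintype.card_fin, div_mul_cancel₀ _ h0, sub_self]⟩
        map_add' := fun X Y => by
          apply Subtype.ext
          change X + Y - (Matrix.trace (X + Y) / (d i0 : K)) • (1 : Matrix _ _ K) =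
            (X - (Matrix.trace X / (d i0 : K)) • 1) + (Y - (Matrix.trace Y / (d i0 : K)) • 1)
          rw [Matrix.trace_add, add_div, add_smul]
          abel
        map_smul' := fun c X => by
          apply Subtype.ext
          change c • X - (Matrix.trace (c • X) / (d i0 : K)) • (1 : Matrix _ _ K) =
            c • (X - (Matrix.trace X / (d i0 : K)) • 1)
          rw [Matrix.trace_smul, smul_eq_mul, mul_div_assoc, smul_sub, smul_smul] }
    obtain ⟨H, hH⟩ := tate hP (rep0 (uhom γ ι π)) hfix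
      (conjRep (uhom γ ι π) (uhom γ ι π)) F (fun g w => by
        apply Subtype.ext
        rw [rep0_apply]
        change conjRep (uhom γ ι π) (uhom γ ι π) g w -
          (Matrix.trace (conjRep (uhom γ ι π) (uhom γ ι π) g w) / (d i0 : K)) • 1 = 
            uhom γ ι π g * (w - (Matrix.trace w / (d i0 : K)) • 1) * uhom γ ι π g⁻¹
        rw [trace_conj, conjRep_apply, Matrix.mul_sub, Matrix.sub_mul, Matrix.mul_smul,
          Matrix.smul_mul, Matrix.mul_one, mul_inv_of_hom])
    refine ⟨(N0 K (Fin (d i0))).subtype ∘ₗ H, fun f => ?_⟩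
    have h2 := congrArg (fun T => ((T f : N0 K (Fin (d i0))) : Matrix (Fin (d i0)) (Fin (d i0)) K)) hH
    have h3 : ((F f : N0 K (Fin (d i0))) : Matrix (Fin (d i0)) (Fin (d i0)) K) =
      f - (Matrix.trace f / (d i0 : K)) • 1 := rfl
    rw [← h3, h2, trm_apply, Submodule.coe_sum]
    refine Finset.sum_congr rfl fun g _ => ?_
    rw [rep0_apply, conjRep_apply, inv_inv]
    rfl

end Vale.P179.H580
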